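import Vale.Agent.P097.Main

/-!
P097.  Converse: Joachimsthal's integral of an ellipse.
-/

namespace Vale.Agent.P097

open Complex Set

/-- The coordinates of a chord in the frames at its two ends. -/
theorem Maps.sines {γ : ℝ → ℂ} {L s δ t δ' : ℝ} (hm : Maps γ L s δ t δ')
    (us : (deriv γ s).re ^ 2 + (deriv γ s).im ^ 2 = 1)
    (ut : (deriv γ t).re ^ 2 + (deriv γ t).im ^ 2 = 1) :
    ∃ r : ℝ, 0 < r ∧
      (deriv γ s).re * ((γ t).im - (γ s).im) - (deriv γ s).im * ((γ t).re - (γ s).re)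
        = r * Real.sin δ ∧
      (deriv γ t).re * ((γ t).im - (γ s).im) - (deriv γ t).im * ((γ t).re - (γ s).re)
        = -(r * Real.sin δ') := by
  obtain ⟨-, -, -, -, -, -, r, hr, h1, h2⟩ := hm
  have x1 := congrArg Complex.re h1
  have y1 := congrArg Complex.im h1
  have x2 := congrArg Complex.re h2
  have y2 := congrArg Complex.im h2
  rw [← neg_mul, ← ofReal_neg] at x2 y2
  simp only [mul_re, mul_im, sub_re, sub_im, ofReal_re, ofReal_im, exp_ofReal_mul_I_re,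
    exp_ofReal_mul_I_im, zero_mul, sub_zero, add_zero, Real.cos_neg, Real.sin_neg] at x1 y1 x2 y2
  obtain ⟨c, hc⟩ : ∃ z, z = (deriv γ s).re := ⟨_, rfl⟩
  obtain ⟨d, hd⟩ : ∃ z, z = (deriv γ s).im := ⟨_, rfl⟩
  obtain ⟨c', hc'⟩ : ∃ z, z = (deriv γ t).re := ⟨_, rfl⟩
  obtain ⟨d', hd'⟩ : ∃ z, z = (deriv γ t).im := ⟨_, rfl⟩
  rw [← hc, ← hd] at x1 y1 us
  rw [← hc', ← hd'] at x2 y2 ut
  rw [← hc, ← hd, ← hc', ← hd']
  refine ⟨r, hr, ?_, ?_⟩
  · rw [x1, y1]; linear_combination (r * Real.sin δ) * us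
  · rw [x2, y2]; linear_combination (-(r * Real.sin δ')) * ut

theorem joachimsthal (γ : ℝ → ℂ) (L : ℝ) (hT : Table γ L) (hE : IsEllipse (range γ)) :
    ∃ b : ℝ → ℝ, (∀ s, b s ≠ 0) ∧
      ∀ s δ t δ', Maps γ L s δ t δ' → b s * Real.sin δ = b t * Real.sin δ' := by
  obtain ⟨z₀, A, B, C, hA, hdisc, hS⟩ := hE
  have hC := hT.curve
  obtain ⟨x, hx⟩ : ∃ x : ℝ → ℝ, x = fun s => (γ s).re := ⟨_, rfl⟩
  obtain ⟨y, hy⟩ : ∃ x : ℝ → ℝ, x = fun s => (γ s).im := ⟨_, rfl⟩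
  obtain ⟨c, hc⟩ : ∃ x : ℝ → ℝ, x = fun s => (deriv γ s).re := ⟨_, rfl⟩
  obtain ⟨d, hd⟩ : ∃ x : ℝ → ℝ, x = fun s => (deriv γ s).im := ⟨_, rfl⟩
  rw [← hx, ← hy, ← hc, ← hd] at hC
  have hcen : ∀ s, A * (x s - z₀.re) ^ 2 + 2 * B * ((x s - z₀.re) * (y s - z₀.im))
      + C * (y s - z₀.im) ^ 2 = 1 := by
    intro s
    have : γ s ∈ range γ := ⟨s, rfl⟩
    rw [hS] at this
    have h2 : A * (γ s - z₀).re ^ 2 + 2 * B * ((γ s - z₀).re * (γ s - z₀).im)
      + C * (γ s - z₀).im ^ 2 = 1 := this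
    rw [sub_re, sub_im] at h2
    rw [hx, hy]
    exact h2
  have hq : ∀ s, (A * z₀.re ^ 2 + 2 * B * (z₀.re * z₀.im) + C * z₀.im ^ 2 - 1)
      + (-(2 * A * z₀.re + 2 * B * z₀.im)) * x s + (-(2 * B * z₀.re + 2 * C * z₀.im)) * y s
      + A * x s ^ 2 + 2 * B * (x s * y s) + C * y s ^ 2 = 0 := by
    intro s
    linear_combination hcen s
  have hdq := hC.deriv_conic hq
  obtain ⟨n1, hn1⟩ : ∃ n : ℝ → ℝ, n = fun s => A * (x s - z₀.re) + B * (y s - z₀.im) := ⟨_, rfl⟩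
  obtain ⟨n2, hn2⟩ : ∃ n : ℝ → ℝ, n = fun s => B * (x s - z₀.re) + C * (y s - z₀.im) := ⟨_, rfl⟩
  have hort : ∀ s, n1 s * c s + n2 s * d s = 0 := by
    intro s
    rw [hn1, hn2]
    linear_combination (1 / 2) * hdq s
  have hun := hC.unit
  obtain ⟨b, hb⟩ : ∃ n : ℝ → ℝ, n = fun s => c s * n2 s - d s * n1 s := ⟨_, rfl⟩
  have e1 : ∀ s, n1 s = -(b s * d s) := by
    intro s
    rw [hb]
    linear_combination (-(n1 s)) * hun s + c s * hort s
  have e2 : ∀ s, n2 s = b s * c s := by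
    intro s
    rw [hb]
    linear_combination (-(n2 s)) * hun s + d s * hort s
  refine ⟨b, fun s hs => ?_, fun s δ t δ' hm => ?_⟩
  · have f1 : n1 s = 0 := by rw [e1 s, hs]; ring
    have f2 : n2 s = 0 := by rw [e2 s, hs]; ring
    have f3 : A * (x s - z₀.re) ^ 2 + 2 * B * ((x s - z₀.re) * (y s - z₀.im))
      + C * (y s - z₀.im) ^ 2 = (x s - z₀.re) * n1 s + (y s - z₀.im) * n2 s := by
      rw [hn1, hn2]; ring
    rw [hcen s, f1, f2] at f3
    norm_num at f3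
  · obtain ⟨r, hr, k1, k2⟩ := hm.sines (hT.unit' s) (hT.unit' t)
    have g1 : c s * (y t - y s) - d s * (x t - x s) = r * Real.sin δ := by
      rw [hc, hd, hx, hy]; exact k1
    have g2 : c t * (y t - y s) - d t * (x t - x s) = -(r * Real.sin δ') := by
      rw [hc, hd, hx, hy]; exact k2
    have g3 : (n1 s + n1 t) * (x t - x s) + (n2 s + n2 t) * (y t - y s) = 0 := by
      rw [hn1, hn2]
      linear_combination hcen t - hcen s
    rw [e1 s, e1 t, e2 s, e2 t] at g3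
    have g4 : r * (b s * Real.sin δ - b t * Real.sin δ') = 0 := by
      linear_combination g3 - b s * g1 - b t * g2
    have := (mul_eq_zero.mp g4).resolve_left hr.ne'
    linarith

end Vale.Agent.P097
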